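import Vale.Agent.P139Z.ExtX.Jet

/-! The mass estimate in terms of the Cauchy data of a radial solution at one radius. -/

open Set Filter Topology MeasureTheory Complex
open scoped NNReal ENNReal ComplexConjugate ContDiff

namespace Vale.Agent.P139Z.ExtX

theorem wn_conj (p : ℝ) (j : ℕ) (F H : ℝ → ℂ) (a : ℝ) :
    wn p j F (fun x => conj (H x)) a = wn p j F H a := by
  simp only [wn, norm_itd_conj]

theorem decay_conj {b : ℝ} {F : ℝ → ℂ} (h : Decay b F) : Decay b (fun x => conj (F x)) := by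
  simpa only [Decay, norm_itd_conj] using h

theorem lam_re {m : ℕ} (β : ℝ) : (Lam m β).re = 1 / (2 * (m : ℝ)) := by
  have : (1 / (2 * (m : ℂ))) = ((1 / (2 * (m : ℝ)) : ℝ) : ℂ) := by push_cast; rfl
  rw [Lam, this, sub_re, ofReal_re]
  simp

theorem norm_lam {m : ℕ} {β : ℝ} (hm : 1 ≤ m) (hβ : |β| ≤ 1) : ‖Lam m β‖ ≤ 2 := by
  have h1 : (1 : ℝ) ≤ m := by exact_mod_cast hm
  refine (norm_sub_le _ _).trans ?_
  rw [norm_mul, norm_I, Complex.norm_real, Real.norm_eq_abs, norm_div, norm_mul, norm_one,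
    Complex.norm_natCast, Complex.norm_ofNat]
  have : 1 / (2 * (m : ℝ)) ≤ 1 := by
    rw [div_le_one (by linarith)]; linarith
  linarith

theorem norm_A_le {m l : ℕ} {β W : ℝ} {z : ℂ} (hm : 1 ≤ m) (hβ : |β| ≤ 1)
    (hW : l + ‖z‖ + 6 ≤ W) : ‖(l : ℂ) / 2 + z + Lam m β‖ ≤ W := by
  refine (norm_add_le _ _).trans ?_
  have h1 := norm_add_le ((l : ℂ) / 2) z
  rw [norm_div, Complex.norm_natCast, Complex.norm_ofNat] at h1
  have h2 := norm_lam hm hβ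
  have h3 : (0 : ℝ) ≤ l := Nat.cast_nonneg l
  linarith

theorem re_A_ge {m l : ℕ} {β : ℝ} {z : ℂ} (hz : 0 ≤ z.re) :
    (l : ℝ) / 2 ≤ ((l : ℂ) / 2 + z + Lam m β).re := by
  have h1 : ((l : ℂ) / 2).re = (l : ℝ) / 2 := by simp
  rw [add_re, add_re, h1, lam_re]
  have : 0 ≤ 1 / (2 * (m : ℝ)) := by positivity
  linarith

theorem rpow_le_inv {l i : ℕ} {r : ℝ} (hr : 1 ≤ r) :
    (r ^ 2) ^ (-((l : ℝ) / 2 + i)) ≤ (r ^ l)⁻¹ := by
  have h0 : 0 < r := by linarith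
  have h1 : (r ^ 2) ^ (-((l : ℝ) / 2 + i)) ≤ (r ^ 2) ^ (-((l : ℝ) / 2)) :=
    Real.rpow_le_rpow_of_exponent_le (one_le_pow₀ hr) (by
      have : (0 : ℝ) ≤ i := Nat.cast_nonneg i
      linarith)
  refine h1.trans (le_of_eq ?_)
  rw [← Real.rpow_natCast r 2, ← Real.rpow_mul h0.le, ← Real.rpow_natCast r l,
    ← Real.rpow_neg h0.le]
  congr 1
  push_cast
  ring

/-- The size of the Cauchy data. -/
noncomputable def cd (l : ℕ) (f g : ℝ → ℂ) (r : ℝ) : ℝ :=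
  (1 + l) * (‖f r‖ + ‖g r‖) + ‖deriv f r‖ + ‖deriv g r‖

theorem red_data {l : ℕ} {f : ℝ → ℂ} {r D : ℝ} (hr : 1 ≤ r)
    (hF : ContDiffOn ℝ 30 (red l f) (Ioi 0)) (h : (1 + l) * ‖f r‖ + ‖deriv f r‖ ≤ D) :
    ∀ i ≤ 1, ‖iteratedDeriv i (red l f) (r ^ 2)‖ ≤ D * (r ^ l)⁻¹ := by
  have h0 : 0 < r := by linarith
  have hp : 0 < r ^ l := pow_pos h0 l
  have hl : (0 : ℝ) ≤ l * ‖f r‖ := by positivity
  intro i hi
  rw [← div_eq_mul_inv, le_div_iff₀ hp, mul_comm]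
  rcases Nat.le_one_iff_eq_zero_or_eq_one.1 hi with rfl | rfl
  · rw [iteratedDeriv_zero, norm_red l f h0]
    linarith [norm_nonneg (deriv f r)]
  · rw [iteratedDeriv_one]
    have hd : DifferentiableAt ℝ (red l f) (r ^ 2) :=
      (cda (k := 1) hF (le_thirty (by norm_num)) (pow_pos h0 2)).differentiableAt (by simp)
    linarith [norm_deriv_red_le hr hd, norm_nonneg (f r)]

theorem smooth_of_conj {n : WithTop ℕ∞} {F : ℝ → ℂ}
    (h : ContDiffOn ℝ n (fun x => conj (F x)) (Ioi 0)) : ContDiffOn ℝ n F (Ioi 0) := by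
  have := (conjCLE.contDiff (n := n)).comp_contDiffOn h
  refine this.congr fun x _ => ?_
  simp

theorem core : ∃ ε₀ : ℝ, 0 < ε₀ ∧ ∃ C : ℝ, 0 < C ∧
    ∀ (m : ℕ) (β : ℝ) (G : ℝ → ℂ) (l : ℕ) (lam : ℂ) (f g SF SG : ℝ → ℂ) (M r W : ℝ), 1 ≤ m →
      |β| ≤ 1 → IsProfile m β G → GoodExt m G ε₀ (r ^ 2) → RSol m β G l lam f g SF SG →
      0 ≤ lam.re → Symb (-((l : ℝ) / 2)) (red l SF) → Symb (-((l : ℝ) / 2)) (red l SG) →
      (∀ i ≤ 10, ∀ ρ : ℝ, r ^ 2 ≤ ρ →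
        ‖iteratedDeriv i (red l SF) ρ‖ ≤ M * ρ ^ (-((l : ℝ) / 2 + i)) ∧
        ‖iteratedDeriv i (red l SG) ρ‖ ≤ M * ρ ^ (-((l : ℝ) / 2 + i))) →
      1 ≤ r → r ≤ 4 → l + ‖lam‖ + 6 ≤ W →
      wn (l + 12) 7 (red l f) (red l g) (r ^ 2) ≤ C * (W ^ 16 * (cd l f g r ^ 2 + M ^ 2)) ∧
      wn (l + 13) 8 (red l f) (red l g) (r ^ 2) ≤ C * (W ^ 16 * (cd l f g r ^ 2 + M ^ 2)) ∧
      ∀ i : ℕ, i ≤ 7 → IntegrableOn (fun ρ : ℝ => ρ ^ ((l : ℝ) - 4 + 2 * i)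
          * (‖iteratedDeriv i (red l f) ρ‖ ^ 2 + ‖iteratedDeriv i (red l g) ρ‖ ^ 2)) (Ioi (r ^ 2)) ∧
        wn (l - 4 + 2 * i) i (red l f) (red l g) (r ^ 2)
          ≤ C * (W ^ 16 * (cd l f g r ^ 2 + M ^ 2)) := by
  obtain ⟨ε₀, hε, C, hC, H⟩ := mass_estimate
  set c : ℝ := 2 * 16 ^ 14 * 200 ^ 16 with hc
  have hc1 : 1 ≤ c := by rw [hc]; norm_num
  refine ⟨min ε₀ 1, lt_min hε one_pos, (C + 1) * (C + 1) * (40 * c), by positivity, ?_⟩
  intro m β G l lam f g SF SG M r W hm hβ hG hE hR hl hSF hSG hM hr hr' hW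
  have h0 : 0 < r := by linarith
  have hρ : 1 ≤ r ^ 2 := one_le_pow₀ hr
  have hρ' : r ^ 2 ≤ 16 := by nlinarith
  have hl0 : (0 : ℝ) ≤ l := Nat.cast_nonneg l
  have hW1 : 1 ≤ W := by linarith [norm_nonneg lam]
  have hred := hR.redSol
  obtain ⟨p1, p2⟩ := symb_pot hm hG
  have hd := hR.decay hm hG (b := 0) (by
    have : (0 : ℝ) < m := by exact_mod_cast hm
    have : 0 < 1 / (2 * (m : ℝ)) := by positivity
    linarith) (by norm_num) (by simpa using hSF) (by simpa using hSG)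
  rw [add_zero] at hd
  have hM0 : 0 ≤ M := by
    have h1 := (norm_nonneg _).trans (hM 0 (by norm_num) _ le_rfl).1
    exact nonneg_of_mul_nonneg_left h1 (Real.rpow_pos_of_pos (by positivity) _)
  have hmono : ∀ (i : ℕ) (ρ : ℝ), r ^ 2 ≤ ρ →
      min ε₀ 1 * ρ ^ (-(1 + (i : ℝ))) ≤ ε₀ * ρ ^ (-(1 + (i : ℝ))) := fun i ρ hρ2 =>
    mul_le_mul_of_nonneg_right (min_le_left _ _) (Real.rpow_nonneg (by linarith) _)
  have hone : ∀ i : ℕ, min ε₀ 1 * (r ^ 2) ^ (-(1 + (i : ℝ))) ≤ 1 := fun i =>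
    mul_le_one₀ (min_le_right _ _) (Real.rpow_nonneg (by linarith) _)
      (Real.rpow_le_one_of_one_le_of_nonpos hρ (by
        have : (0 : ℝ) ≤ i := Nat.cast_nonneg i
        linarith))
  obtain ⟨w7, w8, wi⟩ := H _ _ _ _ l _ _ _ _ (r ^ 2) M hred p1.smooth p2.smooth hSF.smooth
    hSG.cj.smooth (re_A_ge hl) (re_A_ge (by simpa using hl)) hρ hρ'
    (fun i hi ρ h => ⟨(hE.v1 i hi ρ h).trans (hmono i ρ h), (hE.v2 i hi ρ h).trans (hmono i ρ h)⟩)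
    (fun i hi ρ h => by rw [norm_itd_conj]; exact hM i hi ρ h) hd.1 (decay_conj hd.2)
  set D := cd l f g r with hD
  have hD0 : 0 ≤ D := by rw [hD, cd]; positivity
  have hinv : 0 < (r ^ l)⁻¹ := by positivity
  have hDM : D * (r ^ l)⁻¹ ≤ (D + M) * (r ^ l)⁻¹ :=
    mul_le_mul_of_nonneg_right (by linarith) hinv.le
  have hMD : ∀ i : ℕ, M * (r ^ 2) ^ (-((l : ℝ) / 2 + i)) ≤ (D + M) * (r ^ l)⁻¹ := fun i =>
    mul_le_mul (by linarith) (rpow_le_inv hr) (Real.rpow_nonneg (by linarith) _) (by linarith)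
  have hj := jets (W := W) (E := (D + M) * (r ^ l)⁻¹) hred p1.smooth p2.smooth hSF.smooth
    hSG.cj.smooth hρ hρ' (norm_A_le hm hβ hW) (norm_A_le hm hβ (by rwa [Complex.norm_conj]))
    (by push_cast; linarith [norm_nonneg lam]) hW1
    (fun i hi => ⟨(hE.v1 i hi _ le_rfl).trans (hone i), (hE.v2 i hi _ le_rfl).trans (hone i)⟩)
    (fun i hi => by
      rw [norm_itd_conj]
      exact ⟨(hM i hi _ le_rfl).1.trans (hMD i), (hM i hi _ le_rfl).2.trans (hMD i)⟩)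
    (fun i hi => by
      rw [norm_itd_conj]
      have a1 : (0 : ℝ) ≤ (1 + l) * ‖f r‖ := by positivity
      have a2 : (0 : ℝ) ≤ (1 + l) * ‖g r‖ := by positivity
      refine ⟨(red_data hr hred.smoothF ?_ i hi).trans hDM,
        (red_data hr (smooth_of_conj hred.smoothH) ?_ i hi).trans hDM⟩
      · rw [hD, cd]; linarith [norm_nonneg (deriv g r)]
      · rw [hD, cd]; linarith [norm_nonneg (deriv f r)]) 8 le_rfl
  obtain ⟨b7, b8, bb⟩ := bdry_le (l := l) hρ hρ' hj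
  set X := W ^ 16 * (D ^ 2 + M ^ 2) with hX
  have hX0 : 0 ≤ X := by positivity
  have hT : 16 ^ 14 * ((r ^ 2) ^ l * ((200 * W) ^ 8 * ((D + M) * (r ^ l)⁻¹)) ^ 2) ≤ c * X := by
    have e : (r ^ 2) ^ l * ((200 * W) ^ 8 * ((D + M) * (r ^ l)⁻¹)) ^ 2
        = 200 ^ 16 * W ^ 16 * (D + M) ^ 2 := by
      rw [← pow_mul, mul_comm 2 l, pow_mul]
      field_simp
    have h2 : (D + M) ^ 2 ≤ 2 * (D ^ 2 + M ^ 2) := by nlinarith [sq_nonneg (D - M)]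
    have h3 := mul_le_mul_of_nonneg_left h2 (by positivity : (0 : ℝ) ≤ 16 ^ 14 * (200 ^ 16 * W ^ 16))
    rw [e, hc, hX]
    linarith
  have hMX : M ^ 2 ≤ c * X := by
    have h1 : M ^ 2 ≤ X := by
      have := le_mul_of_one_le_left (by positivity : 0 ≤ D ^ 2 + M ^ 2) (one_le_pow₀ (n := 16) hW1)
      linarith [sq_nonneg D]
    exact h1.trans (le_mul_of_one_le_left hX0 hc1)
  set Y := c * X with hY
  have hY0 : 0 ≤ Y := by positivity
  have e : (C + 1) * (C + 1) * (40 * c) * X = (C + 1) * (C + 1) * (40 * Y) := by rw [hY]; ring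
  rw [wn_conj] at w7 w8
  simp only [wn_conj, norm_itd_conj] at wi
  have v7 : wn (l + 12) 7 (red l f) (red l g) (r ^ 2) ≤ C * (40 * Y) :=
    w7.trans (mul_le_mul_of_nonneg_left (by linarith) hC.le)
  have v8 : wn (l + 13) 8 (red l f) (red l g) (r ^ 2) ≤ C * (40 * Y) :=
    w8.trans (mul_le_mul_of_nonneg_left (by linarith) hC.le)
  have hCC : C * (40 * Y) ≤ (C + 1) * (C + 1) * (40 * Y) :=
    mul_le_mul_of_nonneg_right (by nlinarith) (by positivity)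
  rw [e]
  refine ⟨v7.trans hCC, v8.trans hCC, fun i hi => ⟨(wi i hi).1, (wi i hi).2.trans ?_⟩⟩
  calc _ ≤ C * (C * (40 * Y) + 40 * Y) := mul_le_mul_of_nonneg_left (by linarith) hC.le
    _ = C * (C + 1) * (40 * Y) := by ring
    _ ≤ _ := mul_le_mul_of_nonneg_right (by nlinarith) (by positivity)

end Vale.Agent.P139Z.ExtX
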