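import Vale.Agent.P139Z.ExtE

/-! Bounds for the jets of a solution of the reduced system at one point. -/

open Set Filter Topology MeasureTheory Complex
open scoped NNReal ENNReal ComplexConjugate ContDiff

namespace Vale.Agent.P139Z.ExtX

theorem itd_conj (j : ℕ) (F : ℝ → ℂ) :
    iteratedDeriv j (fun x => conj (F x)) = fun x => conj (iteratedDeriv j F x) := by
  induction j with
  | zero => simp
  | succ j ih =>
    rw [iteratedDeriv_succ, ih, iteratedDeriv_succ]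
    exact deriv.star'

theorem norm_itd_conj (j : ℕ) (F : ℝ → ℂ) (x : ℝ) :
    ‖iteratedDeriv j (fun x => conj (F x)) x‖ = ‖iteratedDeriv j F x‖ := by
  rw [itd_conj, Complex.norm_conj]

theorem norm_itd_mul_le {j : ℕ} {V F : ℝ → ℂ} {ρ E : ℝ} (hV : ContDiffAt ℝ j V ρ)
    (hF : ContDiffAt ℝ j F ρ) (h1 : ∀ i ≤ j, ‖iteratedDeriv i V ρ‖ ≤ 1)
    (h2 : ∀ i ≤ j, ‖iteratedDeriv i F ρ‖ ≤ E) :
    ‖iteratedDeriv j (fun x => V x * F x) ρ‖ ≤ 2 ^ j * E := by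
  rw [iteratedDeriv_fun_mul hV hF]
  have hs : (2 : ℝ) ^ j * E = ∑ i ∈ Finset.range (j + 1), (j.choose i : ℝ) * E := by
    rw [← Finset.sum_mul, ← Nat.cast_sum, Nat.sum_range_choose]; push_cast; rfl
  rw [hs]
  refine (norm_sum_le _ _).trans (Finset.sum_le_sum fun i hi => ?_)
  have hi' : i ≤ j := Nat.lt_succ_iff.1 (Finset.mem_range.1 hi)
  rw [norm_mul, norm_mul, Complex.norm_natCast, mul_assoc]
  refine mul_le_mul_of_nonneg_left ?_ (Nat.cast_nonneg _)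
  calc _ ≤ 1 * E := mul_le_mul (h1 i hi') (h2 _ (Nat.sub_le _ _)) (norm_nonneg _) zero_le_one
    _ = E := one_mul E

theorem cda {n : WithTop ℕ∞} {k : ℕ} {F : ℝ → ℂ} (h : ContDiffOn ℝ n F (Ioi 0))
    (hk : (k : WithTop ℕ∞) ≤ n) {ρ : ℝ} (hρ : 0 < ρ) : ContDiffAt ℝ k F ρ :=
  (h.contDiffAt (Ioi_mem_nhds hρ)).of_le hk

theorem le_thirty {k : ℕ} (hk : k ≤ 30) : (k : WithTop ℕ∞) ≤ 30 := by exact_mod_cast hk

theorem le_infty (k : ℕ) : (k : WithTop ℕ∞) ≤ ((⊤ : ℕ∞) : WithTop ℕ∞) := by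
  exact_mod_cast le_top

theorem step_one {V₁ V₂ F H SF : ℝ → ℂ} {A : ℂ} {B j : ℕ} {ρ W E : ℝ}
    (e : ∀ x : ℝ, 0 < x → Mop A B F x = V₁ x * F x + V₂ x * conj (H x) + SF x)
    (hF : ContDiffOn ℝ 30 F (Ioi 0)) (hH : ContDiffOn ℝ 30 H (Ioi 0))
    (h₁ : ContDiffOn ℝ ∞ V₁ (Ioi 0)) (h₂ : ContDiffOn ℝ ∞ V₂ (Ioi 0))
    (hS : ContDiffOn ℝ ∞ SF (Ioi 0)) (hj : j ≤ 8) (hρ : 1 ≤ ρ) (hρ' : ρ ≤ 16) (hA : ‖A‖ ≤ W)
    (hB : (B : ℝ) ≤ W) (hW : 1 ≤ W)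
    (hV : ∀ i ≤ j, ‖iteratedDeriv i V₁ ρ‖ ≤ 1 ∧ ‖iteratedDeriv i V₂ ρ‖ ≤ 1)
    (hE : ∀ i ≤ j + 1, ‖iteratedDeriv i F ρ‖ ≤ E ∧ ‖iteratedDeriv i H ρ‖ ≤ E)
    (hSE : ‖iteratedDeriv j SF ρ‖ ≤ E) : ‖iteratedDeriv (j + 2) F ρ‖ ≤ 200 * W * E := by
  have h0 : 0 < ρ := by linarith
  have hE0 : 0 ≤ E := (norm_nonneg _).trans hSE
  have hev : Mop A B F =ᶠ[𝓝 ρ] fun x => V₁ x * F x + V₂ x * conj (H x) + SF x :=
    (eventually_gt_nhds h0).mono fun x hx => e x hx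
  have h1 := hev.iteratedDeriv_eq j
  have cF : ContDiffAt ℝ j F ρ := cda hF (le_thirty (by omega)) h0
  have cH : ContDiffAt ℝ j (fun x => conj (H x)) ρ :=
    (conjCLE.contDiff.contDiffAt).comp ρ (cda hH (le_thirty (by omega)) h0)
  have c1 : ContDiffAt ℝ j V₁ ρ := cda h₁ (le_infty j) h0
  have c2 : ContDiffAt ℝ j V₂ ρ := cda h₂ (le_infty j) h0
  have cS : ContDiffAt ℝ j SF ρ := cda hS (le_infty j) h0
  rw [iteratedDeriv_Mop A B j (cda hF (le_thirty (by omega)) h0),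
    iteratedDeriv_fun_add ((c1.mul cF).add (c2.mul cH)) cS,
    iteratedDeriv_fun_add (c1.mul cF) (c2.mul cH), Mop] at h1
  have e2 : iteratedDeriv 2 (iteratedDeriv j F) = iteratedDeriv (j + 2) F := by
    rw [iteratedDeriv_succ, iteratedDeriv_succ, iteratedDeriv_zero, iteratedDeriv_succ,
      iteratedDeriv_succ]
  rw [e2, ← iteratedDeriv_succ] at h1
  have b1 := norm_itd_mul_le c1 cF (fun i hi => (hV i hi).1) fun i hi => (hE i (by omega)).1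
  have b2 := norm_itd_mul_le c2 cH (fun i hi => (hV i hi).2) fun i hi => by
    rw [norm_itd_conj]; exact (hE i (by omega)).2
  have hp : (2 : ℝ) ^ j ≤ 256 := by
    calc (2 : ℝ) ^ j ≤ 2 ^ 8 := pow_le_pow_right₀ one_le_two hj
      _ = 256 := by norm_num
  have hj' : (j : ℝ) ≤ 8 := by exact_mod_cast hj
  have b3 : ‖(4 * ((B + j : ℕ) : ℂ) + I * ρ) * iteratedDeriv (j + 1) F ρ‖ ≤ (4 * W + 48) * E := by
    rw [norm_mul]
    refine mul_le_mul ?_ (hE _ le_rfl).1 (norm_nonneg _) (by positivity)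
    refine (norm_add_le _ _).trans ?_
    rw [norm_mul, norm_mul, Complex.norm_natCast, norm_I, Complex.norm_real, Real.norm_eq_abs,
      abs_of_pos h0]
    push_cast
    simp only [Complex.norm_ofNat]
    linarith
  have b4 : ‖I * (A + j) * iteratedDeriv j F ρ‖ ≤ (W + 8) * E := by
    rw [norm_mul, norm_mul, norm_I, one_mul]
    refine mul_le_mul ?_ (hE _ (by omega)).1 (norm_nonneg _) (by positivity)
    refine (norm_add_le _ _).trans ?_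
    rw [Complex.norm_natCast]
    linarith
  have h2 : 4 * (ρ : ℂ) * iteratedDeriv (j + 2) F ρ =
      iteratedDeriv j (fun x => V₁ x * F x) ρ + iteratedDeriv j (fun x => V₂ x * conj (H x)) ρ
        + iteratedDeriv j SF ρ - (4 * ((B + j : ℕ) : ℂ) + I * ρ) * iteratedDeriv (j + 1) F ρ
        - I * (A + j) * iteratedDeriv j F ρ := by linear_combination h1
  have h3 : ‖4 * (ρ : ℂ) * iteratedDeriv (j + 2) F ρ‖ ≤
      2 ^ j * E + 2 ^ j * E + E + (4 * W + 48) * E + (W + 8) * E := by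
    rw [h2]
    refine (norm_sub_le _ _).trans (add_le_add ((norm_sub_le _ _).trans (add_le_add
      ((norm_add_le _ _).trans (add_le_add ((norm_add_le _ _).trans (add_le_add b1 b2)) hSE)) b3))
      b4)
  rw [norm_mul, norm_mul, Complex.norm_real, Real.norm_eq_abs, abs_of_pos h0,
    Complex.norm_ofNat] at h3
  have h4 := norm_nonneg (iteratedDeriv (j + 2) F ρ)
  have h5 : 2 ^ j * E ≤ 256 * E := mul_le_mul_of_nonneg_right hp hE0
  have h6 : E ≤ W * E := le_mul_of_one_le_left hE0 hW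
  nlinarith

theorem jets {V₁ V₂ F H SF SH : ℝ → ℂ} {A A' : ℂ} {B : ℕ} {ρ W E : ℝ}
    (h : RedSol V₁ V₂ A A' B F H SF SH)
    (h₁ : ContDiffOn ℝ ∞ V₁ (Ioi 0)) (h₂ : ContDiffOn ℝ ∞ V₂ (Ioi 0))
    (hS : ContDiffOn ℝ ∞ SF (Ioi 0)) (hS' : ContDiffOn ℝ ∞ SH (Ioi 0)) (hρ : 1 ≤ ρ) (hρ' : ρ ≤ 16)
    (hA : ‖A‖ ≤ W) (hA' : ‖A'‖ ≤ W) (hB : (B : ℝ) ≤ W) (hW : 1 ≤ W)
    (hV : ∀ i ≤ 10, ‖iteratedDeriv i V₁ ρ‖ ≤ 1 ∧ ‖iteratedDeriv i V₂ ρ‖ ≤ 1)
    (hSE : ∀ i ≤ 10, ‖iteratedDeriv i SF ρ‖ ≤ E ∧ ‖iteratedDeriv i SH ρ‖ ≤ E)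
    (hE : ∀ i ≤ 1, ‖iteratedDeriv i F ρ‖ ≤ E ∧ ‖iteratedDeriv i H ρ‖ ≤ E) (n : ℕ) (hn : n ≤ 8) :
    ∀ i ≤ n + 1, ‖iteratedDeriv i F ρ‖ ≤ (200 * W) ^ n * E ∧
      ‖iteratedDeriv i H ρ‖ ≤ (200 * W) ^ n * E := by
  have hE0 : 0 ≤ E := (norm_nonneg _).trans (hE 0 zero_le_one).1
  have hW' : 1 ≤ 200 * W := by linarith
  induction n with
  | zero => simpa using hE
  | succ n ih =>
    have ih' := ih (by omega)
    have hle : E ≤ (200 * W) ^ n * E := le_mul_of_one_le_left hE0 (one_le_pow₀ hW')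
    have hle' : (200 * W) ^ n * E ≤ (200 * W) ^ (n + 1) * E :=
      mul_le_mul_of_nonneg_right (pow_le_pow_right₀ hW' (Nat.le_succ n)) hE0
    intro i hi
    rcases Nat.lt_or_ge i (n + 2) with h3 | h3
    · exact ⟨(ih' i (by omega)).1.trans hle', (ih' i (by omega)).2.trans hle'⟩
    · obtain rfl : i = n + 2 := by omega
      have e : (200 * W) ^ (n + 1) * E = 200 * W * ((200 * W) ^ n * E) := by ring
      rw [e]
      exact ⟨step_one h.eqF h.smoothF h.smoothH h₁ h₂ hS (by omega) hρ hρ' hA hB hW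
          (fun i hi => hV i (by omega)) ih' ((hSE n (by omega)).1.trans hle),
        step_one h.eqH h.smoothH h.smoothF h₁ h₂ hS' (by omega) hρ hρ' hA' hB hW
          (fun i hi => hV i (by omega)) (fun i hi => (ih' i hi).symm)
          ((hSE n (by omega)).2.trans hle)⟩

theorem fl_le {B j : ℕ} {F : ℝ → ℂ} {ρ T : ℝ} (hρ : 0 ≤ ρ) (h0 : ‖iteratedDeriv j F ρ‖ ≤ T)
    (h1 : ‖iteratedDeriv (j + 1) F ρ‖ ≤ T) : fl B j F ρ ≤ ρ ^ (B + j) * (5 * T ^ 2) := by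
  refine mul_le_mul_of_nonneg_left ?_ (pow_nonneg hρ _)
  have hT : 0 ≤ T := (norm_nonneg _).trans h0
  have h2 : (conj (iteratedDeriv j F ρ) * iteratedDeriv (j + 1) F ρ).im ≤ T * T := by
    refine (le_abs_self _).trans ((abs_im_le_norm _).trans ?_)
    rw [norm_mul, Complex.norm_conj]
    exact mul_le_mul h0 h1 (norm_nonneg _) hT
  have h3 : ‖iteratedDeriv j F ρ‖ ^ 2 ≤ T ^ 2 := pow_le_pow_left₀ (norm_nonneg _) h0 2
  nlinarith

/-- All boundary quantities are bounded by a bound for the jets. -/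
theorem bdry_le {l : ℕ} {F H : ℝ → ℂ} {ρ T : ℝ} (hρ : 1 ≤ ρ) (hρ' : ρ ≤ 16)
    (h : ∀ i ≤ 9, ‖iteratedDeriv i F ρ‖ ≤ T ∧ ‖iteratedDeriv i H ρ‖ ≤ T) :
    max (fl (6 + l) 7 F ρ + fl (6 + l) 7 H ρ) 0 ≤ 10 * 16 ^ 14 * (ρ ^ l * T ^ 2) ∧
      max (fl (6 + l) 8 F ρ + fl (6 + l) 8 H ρ) 0 ≤ 10 * 16 ^ 14 * (ρ ^ l * T ^ 2) ∧
      bv (6 + l) F H ρ ≤ 14 * 16 ^ 14 * (ρ ^ l * T ^ 2) := by
  have h0 : 0 ≤ ρ := by linarith
  have hp : ∀ k ≤ 14, ρ ^ (k + l) ≤ 16 ^ 14 * ρ ^ l := fun k hk => by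
    rw [pow_add]
    exact mul_le_mul_of_nonneg_right ((pow_le_pow_left₀ h0 hρ' k).trans
      (pow_le_pow_right₀ (by norm_num) hk)) (pow_nonneg h0 l)
  have hT : 0 ≤ T ^ 2 := sq_nonneg T
  have hq : 0 ≤ ρ ^ l * T ^ 2 := mul_nonneg (pow_nonneg h0 l) hT
  have key : ∀ j, j ≤ 8 → max (fl (6 + l) j F ρ + fl (6 + l) j H ρ) 0 ≤
      10 * 16 ^ 14 * (ρ ^ l * T ^ 2) := fun j hj => by
    refine max_le ?_ (by positivity)
    have a1 := fl_le (B := 6 + l) h0 (h j (by omega)).1 (h (j + 1) (by omega)).1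
    have a2 := fl_le (B := 6 + l) h0 (h j (by omega)).2 (h (j + 1) (by omega)).2
    have a3 := mul_le_mul_of_nonneg_right (hp (6 + j) (by omega)) hT
    rw [show 6 + l + j = 6 + j + l by omega] at a1 a2
    nlinarith
  refine ⟨key 7 (by norm_num), key 8 le_rfl, ?_⟩
  have a1 : ∑ i ∈ Finset.range 7, (‖iteratedDeriv i F ρ‖ ^ 2 + ‖iteratedDeriv i H ρ‖ ^ 2)
      ≤ 14 * T ^ 2 := by
    have := Finset.sum_le_card_nsmul (Finset.range 7)
      (fun i => ‖iteratedDeriv i F ρ‖ ^ 2 + ‖iteratedDeriv i H ρ‖ ^ 2) (2 * T ^ 2) fun i hi => by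
        have hi' : i ≤ 9 := by have := Finset.mem_range.1 hi; omega
        have b1 := pow_le_pow_left₀ (norm_nonneg _) (h i hi').1 2
        have b2 := pow_le_pow_left₀ (norm_nonneg _) (h i hi').2 2
        linarith
    rw [Finset.card_range, nsmul_eq_mul] at this
    push_cast at this
    linarith
  have a2 := mul_le_mul_of_nonneg_left a1 (pow_nonneg h0 (6 + l))
  have a3 := mul_le_mul_of_nonneg_right (hp 6 (by norm_num)) hT
  rw [bv]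
  nlinarith

/-! ### the reduction -/

theorem red_sq (l : ℕ) (f : ℝ → ℂ) {r : ℝ} (hr : 0 < r) : (r : ℂ) ^ l * red l f (r ^ 2) = f r := by
  have : (r : ℂ) ≠ 0 := by exact_mod_cast hr.ne'
  rw [red, Real.sqrt_sq hr.le]
  field_simp

theorem red_deriv {l : ℕ} {f : ℝ → ℂ} {r : ℝ} (hr : 0 < r)
    (hF : DifferentiableAt ℝ (red l f) (r ^ 2)) :
    (r : ℂ) * deriv f r = l * f r + 2 * (r : ℂ) ^ (l + 2) * deriv (red l f) (r ^ 2) := by
  have hev : f =ᶠ[𝓝 r] fun x : ℝ => (x : ℂ) ^ l * red l f (x ^ 2) :=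
    (eventually_gt_nhds hr).mono fun x hx => (red_sq l f hx).symm
  have h1 : HasDerivAt (fun x : ℝ => (x : ℂ) ^ l) (l * (r : ℂ) ^ (l - 1)) r := by
    simpa using (hasDerivAt_pow l (r : ℂ)).comp_ofReal
  have h2 : HasDerivAt (fun x : ℝ => red l f (x ^ 2)) ((2 * r : ℝ) • deriv (red l f) (r ^ 2)) r := by
    have hp : HasDerivAt (fun x : ℝ => x ^ 2) (2 * r) r := by simpa using hasDerivAt_pow 2 r
    exact HasDerivAt.scomp (h := fun x : ℝ => x ^ 2) r hF.hasDerivAt hp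
  rw [hev.deriv_eq, (h1.fun_mul h2).deriv, ← red_sq l f hr, real_smul]
  push_cast
  rcases Nat.eq_zero_or_pos l with rfl | hl
  · simp; ring
  · obtain ⟨k, rfl⟩ : ∃ k, l = k + 1 := ⟨l - 1, by omega⟩
    simp only [Nat.add_sub_cancel]
    ring

theorem norm_red (l : ℕ) (f : ℝ → ℂ) {r : ℝ} (hr : 0 < r) :
    r ^ l * ‖red l f (r ^ 2)‖ = ‖f r‖ := by
  rw [← red_sq l f hr, norm_mul, norm_pow, Complex.norm_real, Real.norm_eq_abs, abs_of_pos hr]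

theorem norm_deriv_red_le {l : ℕ} {f : ℝ → ℂ} {r : ℝ} (hr : 1 ≤ r)
    (hF : DifferentiableAt ℝ (red l f) (r ^ 2)) :
    r ^ l * ‖deriv (red l f) (r ^ 2)‖ ≤ ‖deriv f r‖ + l * ‖f r‖ := by
  have h0 : 0 < r := by linarith
  have h1 := red_deriv h0 hF
  have h2 : 2 * (r : ℂ) ^ (l + 2) * deriv (red l f) (r ^ 2) = r * deriv f r - l * f r := by
    linear_combination -h1
  have h3 := norm_sub_le ((r : ℂ) * deriv f r) (l * f r)
  rw [← h2] at h3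
  simp only [norm_mul, norm_pow, Complex.norm_real, Real.norm_eq_abs, abs_of_pos h0,
    Complex.norm_ofNat, Complex.norm_natCast] at h3
  have h4 : 0 ≤ r ^ l * ‖deriv (red l f) (r ^ 2)‖ := by positivity
  have h5 : 0 ≤ (l : ℝ) * ‖f r‖ := by positivity
  have h6 := norm_nonneg (deriv f r)
  rw [pow_add] at h3
  have h7 : r * (r ^ l * ‖deriv (red l f) (r ^ 2)‖) ≤ r * (‖deriv f r‖ + l * ‖f r‖) := by
    nlinarith [mul_nonneg h4 (sub_nonneg.2 hr), mul_nonneg h5 (sub_nonneg.2 hr),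
      mul_nonneg (mul_nonneg h4 h0.le) (sub_nonneg.2 hr), mul_nonneg h4 h0.le]
  exact le_of_mul_le_mul_left h7 h0

theorem norm_deriv_le_red {l : ℕ} {f : ℝ → ℂ} {r : ℝ} (hr : 1 ≤ r)
    (hF : DifferentiableAt ℝ (red l f) (r ^ 2)) :
    ‖deriv f r‖ ≤ l * ‖f r‖ + 2 * r * (r ^ l * ‖deriv (red l f) (r ^ 2)‖) := by
  have h0 : 0 < r := by linarith
  have h3 := norm_add_le ((l : ℂ) * f r) (2 * (r : ℂ) ^ (l + 2) * deriv (red l f) (r ^ 2))
  rw [← red_deriv h0 hF] at h3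
  simp only [norm_mul, norm_pow, Complex.norm_real, Real.norm_eq_abs, abs_of_pos h0,
    Complex.norm_ofNat, Complex.norm_natCast] at h3
  have h5 : 0 ≤ (l : ℝ) * ‖f r‖ := by positivity
  rw [pow_add] at h3
  have h7 : r * ‖deriv f r‖ ≤ r * (l * ‖f r‖ + 2 * r * (r ^ l * ‖deriv (red l f) (r ^ 2)‖)) := by
    nlinarith [mul_nonneg h5 (sub_nonneg.2 hr)]
  exact le_of_mul_le_mul_left h7 h0

end Vale.Agent.P139Z.ExtX
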